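import Vale.Agent.N221.Two
import Vale.Agent.P221X.Fin.Full

/-!
# P221 (N221): the counterexample with its additional properties, over the old statement layer
-/

set_option linter.unusedSectionVars false

noncomputable section

open CategoryTheory MonoidalCategory Limits Pretriangulated MonObj PowerSeries

namespace Vale.Agent.N221

open Vale.Agent.P251 Vale.Agent.P251.T Vale.Agent.P251.S Vale.Agent.P251.M Vale.Agent.P251.I
  Vale.Agent.P221X Vale.Agent.P221X.TA Vale.Agent.P221X.TC Vale.Agent.P221.Loc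
  Vale.Agent.P251.St Vale.Agent.P251.St.SHCat Vale.Agent.P257.St Vale.Agent.P221

variable {T : SHCat} {S : Susp T} {p : ℕ} [hp : Fact p.Prime]

/-- the glued object -/
theorem exists_obj (h5 : 5 ≤ p) {D : MUData T.C} (hD : MUUniv (M.lineIso S.toSpaceFunctor) D)
    (hA : P093.N0.MUAll D) (U : P257.H702.MUFam (M.lineIso S.toSpaceFunctor) D) (W : TD.Twr D p)
    {P : RingSp T} {o : Oriented S P} {φ : GHom S p P} {C : T.C} {a : Hom (ten P.obj C) C}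
    {q : Hom P.obj C} (hP : IsBrownPeterson p o φ) (hq : StI.IsQuotient 2 (hazV φ) a q) :
    ∃ (X E Ke : T.C), OutL p (C ⊗ W.M) W.V2 E Ke X ∧
      (∀ {P : RingSp T} {o : Oriented S P} {φ : GHom S p P}, IsBrownPeterson p o φ →
        ∀ {j : ℕ} {V : T.C}, St.IsGenMoore φ j V → 2 ≤ j → P251.S.Acyclic Ke V) ∧
      ∃ (E' : T.C) (_ : ModStr D.R E'), NM.Thick E' E ∧ Ou.Kl p E' ∧ FinDeg (E' ⊗ W.V1) ∧
        IsZero (E' ⊗ W.V2) := by
  have hF : Nat.card (GaloisField p 2) = p ^ 2 := GaloisField.card p 2 two_ne_zero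
  obtain ⟨St, rfl⟩ := rowTS (D := D) (p := p) (F := GaloisField p 2) h5 inferInstance W
  have hL := locF St
  obtain ⟨β⟩ := rowBD hD hA U St hP hq
  obtain ⟨X, ⟨κ⟩⟩ := rowE2 St (Qt.bg0 hF) ⟨_, _, hD, .of_odd D (by omega), hL, hF⟩ (EV.rowPTS _)
  obtain ⟨Y⟩ := rowQUO St _ hL X
  obtain ⟨Q⟩ := rowETA St _ hL X Y _ β
  obtain ⟨J⟩ := rowJD St _ hL (Qt.schur0 hF h5) X Y
    (rowHTOP St _ hL (rowHT1 (by omega) _) X Y κ)
  obtain ⟨R, _, _, Sr, A₀, e1, e2⟩ := (Qt.gx0 (Qt.keat hF) h5).exists_ra h5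
  have e3 := e2.trans (congrArg (fun g => Meas.ofG (PowerSeries (GaloisField p 2))
    (KO (GaloisField p 2)) g - 1) (Qt.bg0_ψ (Qt.keat hF) h5).symm)
  obtain ⟨A⟩ := RIG.algAll Sr h5 (Qt.gdx0 (Qt.keat hF) h5)
  obtain ⟨Z, hZ⟩ := outL_of_ed h5 (by rw [hF]; nlinarith) (hasCov T S) St.W.fin2 A
    (toED A₀ e1 e3 hL Y Q J)
  exact ⟨Z, Y.E, St.Ke, hZ, fun hP _ _ hV hj => acyclic_genMoore hD U hP hV hj St, X.E, X.mod,
    .retract Y.i Y.r Y.i_r .base, X.pE, finDeg_E2 X, X.v2_iso⟩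

/-- for Moore spectra of type one nothing changes -/
theorem thick_one {P : RingSp T} {o : Oriented S P} {φ : GHom S p P} (h : IsPTyp p o φ) {j : ℕ}
    {V X : T.C} (hV : St.IsGenMoore φ j V) (hj : ¬ 2 ≤ j) {k : ℕ}
    (hX : ((p : ℤ) ^ k) • 𝟙 X = 0) : NM.Thick (X ⊗ V) X := by
  cases hV with
  | @base i _ g δ hi hT =>
    refine NM.thick_of_nilpotent (f := ((p : ℤ) ^ i • 𝟙 X : End X)) (n := k)
      (redTri_distinguished hT X) ?_
    have h1 : ((p : ℤ) ^ i • 𝟙 X : End X) = (p : ℤ) ^ i • (1 : End X) := rfl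
    obtain ⟨l, rfl⟩ : ∃ l, i = l + 1 := ⟨i - 1, by omega⟩
    rw [h1, smul_pow, one_pow, pow_succ, mul_pow, mul_smul]
    exact (congrArg _ hX).trans (smul_zero _)
  | step hV => exact absurd (E.H658.nil_genMoore hp.out h hV).1 (by omega)

/-- **The counterexample.** -/
theorem top (h5 : 5 ≤ p) : (∃ B : T.C, StI.IsStandardForm S p 2 B) ∧
    ∃ X : T.C, StI.IsFpType S p 2 X ∧ ((p : ℤ) ^ 8) • 𝟙 X = 0 ∧
      (∀ k : ℤ, Finite (Sph T.C k ⟶ X) ∧ (k < 0 → ∀ x : Sph T.C k ⟶ X, x = 0)) ∧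
      ¬ StI.ThickOf (fun Y => StI.IsFpType S p 2 Y ∧ StI.IsOrModule S Y) X ∧
      ∀ B : T.C, StI.IsStandardForm S p 2 B → ¬ StI.ThickOf (fun Y => Y = B) X ∧
        ∀ (P : RingSp T) (o : Oriented S P) (φ : GHom S p P) (j : ℕ) (V : T.C),
          IsBrownPeterson p o φ → StI.IsGenMoore φ j V →
            (StI.ThickOf (fun Y => Y = B) (X ⊗ V) ↔ 2 ≤ j) := by
  obtain ⟨P, o, φ, hP⟩ := P257.H702.exists_isBrownPeterson S p
  obtain ⟨C, a, q, hq⟩ := EXI.Close.rowSTD S h5 P o φ hP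
  obtain ⟨D, hD, hA, ⟨U⟩⟩ := H924.exists_mu S.toSpaceFunctor (M.lineIso S.toSpaceFunctor)
  obtain ⟨W⟩ := TD.exists_twr D h5
  obtain ⟨X, E, Ke, hX, hK, E', m, h1, h2, h3, h4⟩ := exists_obj h5 hD hA U W hP hq
  obtain ⟨B₀, c, hB₀, hc⟩ := Fin.exists_std hp.out hP hq W.distM
  have hF := Fin.isFpType_of_out hP (W.genMooreI U hP.typ).2.2 hX.out
  have hn : ∀ B, StI.IsStandardForm S p 2 B → ¬ NM.Thick B X := fun B hB h => hX.out.not_thick
    (Fin.thick_of_completion W.distM c hX.pow (h.trans (Fin.thick_std hB₀ hB)))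
  refine ⟨⟨B₀, hB₀⟩, X, hF, hX.pow, fun k => ⟨hX.fin k, hX.out.conn k⟩, fun h => hn B₀ hB₀
    (Fin.nm_of_thick (thick_of_ev_form (f := 𝟙 X) hp.out (Fin.isForm_of_std hB₀) (isFpTypeI_of hF)
      ⟨0, BijGe.of_isIso 0 (𝟙 X)⟩ ?_)), fun B hB => ⟨fun h => hn B hB (Fin.nm_of_thickOf h),
    fun P' o' φ' j V hP' hV => ⟨fun h => by_contra fun hj => hn B hB ((thick_one hP'.typ
      (isGenMooreI_of hV) hj hX.pow).trans (Fin.nm_of_thickOf h)), fun hj => ?_⟩⟩⟩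
  · clear hX hF hn
    induction h with
    | @base Y h => exact .base ⟨h.2, Y, 𝟙 Y, isFpTypeI_of h.1, 0, BijGe.of_isIso 0 (𝟙 Y)⟩
    | zero h => exact .zero h
    | susp k _ ih => exact .susp k ih
    | cof hd _ _ h1 h2 => exact .cof hd h1 h2
    | retract i r hir _ ih => exact .retract i r hir ih
  · obtain ⟨N, f, hN, hf⟩ := hX.loc
    have hV' := isGenMooreI_of hV
    obtain ⟨k, hk⟩ := hf V (fin_genMoore hV').1 (hK hP' hV' hj)
    exact thickI_of_thick (thick_two hD U hP' hV' hj W m h2 h3 h4 hX.out (hN.trans h1) hk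
      (Fin.isForm_of_std hB))

end Vale.Agent.N221
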