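import Vale.Agent.N221.St
import Vale.Agent.N221.Top
import Vale.Agent.P221CY.Br
import Vale.Agent.P251CX.Top

/-!
# P221 (N221): the short statement layer agrees with the old ones; the final theorem
-/

open CategoryTheory MonoidalCategory

noncomputable section

namespace Vale.Agent.P251CY.N221

open Vale.Agent.P251.St Vale.Agent.P251.St.SHCat Vale.Agent.P221

variable {T : SHCat} {S : Susp T} {R : RingSp T} {p : ℕ}

theorem isBP_iff (φ : GHom S p R) : IsBP φ ↔ ∃ o, F.IsBrownPeterson p o φ :=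
  ⟨fun ⟨h1, h2⟩ => ⟨_, h1, h2⟩, fun ⟨_, h⟩ => ⟨h.typ, h.univ⟩⟩

theorem induces_iff {k : ℕ} {V : T.C} (f : Hom (ten (Sn S k) V) V) (x : PiR S R k) :
    (∀ m (y : Pi m _), comp y (under _ f) = comp y (tenR (mulBy x) V)) ↔ F.Induces f x := by
  constructor
  · intro h m y
    have h1 := h m (y ≫ (α_ _ _ _).inv)
    change (y ≫ _) ≫ (α_ _ _ _).hom ≫ _ = (y ≫ _) ≫ _ at h1
    rw [Category.assoc, Iso.inv_hom_id_assoc, Category.assoc] at h1
    exact h1
  · intro h m y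
    have h1 := h m (y ≫ (α_ _ _ _).hom)
    change (y ≫ _) ≫ _ = (y ≫ _) ≫ (α_ _ _ _).inv ≫ _ at h1
    rw [Category.assoc, Category.assoc, Iso.hom_inv_id_assoc] at h1
    exact h1

theorem isGenMoore_iff (φ : GHom S p R) (j : ℕ) (V : T.C) :
    IsGenMoore φ j V ↔ F.IsGenMoore φ j V := by
  constructor
  · intro h
    induction h with
    | base hi d => exact .base hi d
    | step _ hi e hf d ih => exact .step ih hi e ((induces_iff _ _).1 hf) d
  · intro h
    induction h with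
    | base hi d => exact .base hi d
    | step _ hi e hf d ih => exact .step ih hi e ((induces_iff _ _).2 hf) d

theorem isFpType_iff (S : Susp T) (p n : ℕ) (X : T.C) :
    IsFpType S p n X ↔ StI.IsFpType S p n X := by
  refine Iff.trans ⟨?_, ?_⟩ (F.isFpType_iff S p n X)
  · rintro ⟨h1, h2, h3, h4, h5⟩
    obtain ⟨o, h3⟩ := (isBP_iff _).1 h3
    exact ⟨h1, ⟨_, h2⟩, _, o, _, _, h3, (isGenMoore_iff _ _ _).1 h4, _, h5⟩
  · rintro ⟨h1, ⟨M, h2⟩, P, o, φ, V, h3, h4, N, h5⟩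
    exact ⟨h1, h2, (isBP_iff _).2 ⟨o, h3⟩, (isGenMoore_iff _ _ _).2 h4, h5⟩

theorem isAct_md {C : T.C} (a : Md R C) : F.IsAct (R := R) a.smul :=
  ⟨a.one_smul, (Category.assoc _ _ _).trans ((Iso.inv_comp_eq (α_ R.obj R.obj C)).2 a.mul_smul)⟩

/-- the module object of an action -/
@[reducible] def mdOf {C : T.C} {a : Hom (ten R.obj C) C} (h : F.IsAct a) : Md R C where
  smul := a
  one_smul := h.1
  mul_smul := (Iso.inv_comp_eq (α_ R.obj R.obj C)).1 ((Category.assoc _ _ _).symm.trans h.2)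

theorem exists_ext {G : ℕ → Type} [∀ j, Zero (G j)] (n : ℕ) (x : ∀ i, G (n + i + 1)) :
    ∃ y : ∀ j, G j, ∀ i, y (n + i + 1) = x i := by
  classical
  refine ⟨fun j => if h : ∃ i, n + i + 1 = j then h.choose_spec ▸ x h.choose else 0, fun i => ?_⟩
  have h : ∃ l, n + l + 1 = n + i + 1 := ⟨i, rfl⟩
  have key : ∀ (l : ℕ) (e : n + l + 1 = n + i + 1), (e ▸ x l : G (n + i + 1)) = x i := by
    intro l e
    obtain rfl : l = i := by omega
    rfl
  simp only [dif_pos h]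
  exact key _ _

theorem sum_Ioc {A : Type} [AddCommMonoid A] (f : ℕ → A) (n M : ℕ) :
    ∑ j ∈ Finset.Ioc n (n + M), f j = ∑ i ∈ Finset.range M, f (n + i + 1) := by
  induction M with
  | zero => simp
  | succ M ih => rw [← add_assoc, Finset.sum_Ioc_succ_top (by omega), ih, Finset.sum_range_succ]

theorem isQuotient_iff (n : ℕ) {d : ℕ → ℕ} (x : ∀ j, PiR S R (d j)) {C : T.C} (a : Md R C)
    (q : Hom R.obj C) :
    IsQuotient (fun i => x (n + i + 1)) a q ↔ F.IsQuotient n x a.smul q := by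
  have key : ∀ k (u : Pi k R.obj),
      ((∃ (N : ℕ) (b : ∀ i, Pi k (ten R.obj (Sn S (d (n + i + 1))))),
        u = hsum N fun i => comp (b i) (mulBy (x (n + i + 1)))) ↔
      ∃ (N : ℕ) (b : ∀ j, Pi k (ten R.obj (Sn S (d j)))),
        u = ∑ j ∈ Finset.Ioc n N, comp (b j) (F.mulBy (x j))) := fun k u => by
    constructor
    · rintro ⟨N, b, h⟩
      obtain ⟨c, hc⟩ := exists_ext (G := fun j => Pi k (ten R.obj (Sn S (d j)))) n b
      refine ⟨n + N, c, h.trans ?_⟩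
      rw [sum_Ioc]
      exact Finset.sum_congr rfl fun i _ => by rw [hc]; rfl
    · rintro ⟨N, b, h⟩
      refine ⟨N - n, fun i => b _, h.trans ?_⟩
      have e : Finset.Ioc n N = Finset.Ioc n (n + (N - n)) := by
        ext j
        simp only [Finset.mem_Ioc]
        omega
      rw [e, sum_Ioc]
      rfl
  exact ⟨fun h => ⟨isAct_md a, h.lin.smul_hom, fun k y => (h.surj k y).imp fun _ => Eq.symm,
      fun k u => (h.ker k u).trans (key k u)⟩,
    fun h => ⟨@IsModHom.mk _ _ _ _ _ _ _ _ _ _ (.regular _) a q h.map,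
      fun k y => (h.surj k y).imp fun _ => Eq.symm,
      fun k u => (h.ker k u).trans (key k u).symm⟩⟩

theorem isStandardForm_iff (S : Susp T) (p n : ℕ) (B : T.C) :
    IsStandardForm S p n B ↔ StI.IsStandardForm S p n B := by
  refine Iff.trans ⟨?_, ?_⟩ (F.isStandardForm_iff S p n B)
  · rintro ⟨h1, h2, h3, h4⟩
    rename_i P φ x C a q c
    obtain ⟨o, h1⟩ := (isBP_iff _).1 h1
    obtain ⟨y, hy⟩ := exists_ext (G := fun j => PiR S P (p ^ j - 1)) n x
    obtain rfl : x = fun i => y (n + i + 1) := funext fun i => (hy i).symm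
    refine ⟨P, o, φ, y, C, a.smul, q, c, h1, fun j hj => ?_, (isQuotient_iff n y a q).1 h3, h4⟩
    obtain ⟨i, rfl⟩ : ∃ i, j = n + i + 1 := ⟨j - n - 1, by omega⟩
    exact h2 i
  · rintro ⟨P, o, φ, x, C, a, q, c, h1, h2, h3, h4⟩
    exact ⟨(isBP_iff _).2 ⟨o, h1⟩, fun i => h2 (n + i + 1) (by omega),
      (isQuotient_iff n x (mdOf h3.act) q).2 h3, h4⟩

theorem thickOf_of {Q Q' : T.C → Prop} (hQ : ∀ Y, Q Y → Q' Y) {X : T.C} (h : Thick Q X) :
    StI.ThickOf Q' X := by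
  let P : ObjectProperty T.C := StI.ThickOf Q'
  have : P.IsStableUnderRetracts := ⟨fun r h => .retract r.i r.r r.retract h⟩
  have : P.ContainsZero := ⟨⟨_, Limits.isZero_zero _, .zero ((Limits.isZero_zero _).eq_of_src _ _)⟩⟩
  have : P.IsStableUnderShift ℤ := ⟨fun a => ⟨fun _ h => .susp a h⟩⟩
  have : P.IsTriangulatedClosed₂ := .mk' fun D hD h1 h3 =>
    StI.ThickOf.cof (Pretriangulated.inv_rot_of_distTriang D hD) (.susp (-1) h3) h1
  have : P.IsTriangulated := {}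
  exact (ObjectProperty.triangEnvelope_le_iff (Q := P) Q).2 (fun Y h => .base (hQ Y h)) X h

theorem thick_iff (B X : T.C) : Thick (Eq B) X ↔ StI.ThickOf (fun Y => Y = B) X := by
  refine ⟨thickOf_of fun _ => Eq.symm, fun h => ?_⟩
  let P : ObjectProperty T.C := Eq B
  have : P.Nonempty := ⟨B, rfl⟩
  have hB : P.triangEnvelope B := P.le_triangEnvelope B rfl
  change P.triangEnvelope X
  induction h with
  | base h => exact h ▸ hB
  | zero h =>
    exact P.triangEnvelope.prop_of_retract ⟨0, 0, Limits.zero_comp.trans h.symm⟩ hB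
  | susp k _ ih => exact P.triangEnvelope.le_shift k _ ih
  | cof d _ _ ih ih' => exact P.triangEnvelope.ext_of_isTriangulatedClosed₃ _ d ih ih'
  | retract i r e _ ih => exact P.triangEnvelope.prop_of_retract ⟨i, r, e⟩ ih

theorem counter (T : SHCat) (S : Susp T) (p : ℕ) (hp : p.Prime) (h5 : 5 ≤ p) :
    (∃ B, IsStandardForm S p 2 B) ∧
      ∃ X, IsFpType S p 2 X ∧ zmul (p ^ 8) (ident X) = nul X X ∧
        (∀ k, Finite (Pi k X) ∧ (k < 0 → Subsingleton (Pi k X))) ∧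
        ¬ Thick (fun Y => IsFpType S p 2 Y ∧ IsOr S Y) X ∧
        ∀ B, IsStandardForm S p 2 B → ¬ Thick (Eq B) X ∧
          ∀ R (φ : GHom S p R) j W, IsBP φ → IsGenMoore φ j W →
            (Thick (Eq B) (ten X W) ↔ 2 ≤ j) := by
  have : Fact p.Prime := ⟨hp⟩
  obtain ⟨⟨B₀, h0⟩, X, h1, h2, h3, h4, h6⟩ := Vale.Agent.N221.top (S := S) h5
  refine ⟨⟨B₀, (isStandardForm_iff _ _ _ _).2 h0⟩, X, (isFpType_iff _ _ _ _).2 h1,
    h2, fun k => ⟨(h3 k).1, fun l => (F.sub_iff _ _).2 ((h3 k).2 l)⟩,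
    fun h => h4 (thickOf_of ?_ h), fun B hB => ?_⟩
  · rintro Y ⟨h7, ⟨o, a⟩⟩
    exact ⟨(isFpType_iff _ _ _ _).1 h7, _, o.toOld, a.smul, (F.isAct_iff _).1 (isAct_md a)⟩
  · obtain ⟨h7, h8⟩ := h6 B ((isStandardForm_iff _ _ _ _).1 hB)
    refine ⟨fun h => h7 ((thick_iff _ _).1 h), fun R φ j W hφ hW => (thick_iff _ _).trans ?_⟩
    obtain ⟨o, ho⟩ := (isBP_iff _).1 hφ
    exact h8 _ o.toOld φ.toOld j W ((F.isBrownPeterson_iff _ _ _).1 ho)
      ((F.isGenMoore_iff _ _ _).1 ((isGenMoore_iff _ _ _).1 hW))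

theorem not_hw (T : SHCat) (S : Susp T) :
    ¬ ∀ (p n : ℕ) (B : T.C), p.Prime → IsStandardForm S p n B →
      ∀ X, IsFpType S p n X ↔ Thick (Eq B) X := fun h => by
  obtain ⟨⟨B, hB⟩, X, h1, -, -, -, h2⟩ := counter T S 5 Nat.prime_five le_rfl
  exact (h2 B hB).1 ((h 5 2 B Nat.prime_five hB X).1 h1)

end Vale.Agent.P251CY.N221
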