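import Vale.Agent.P221X.TB.Row
import Vale.Agent.P221X.TC.Loc
import Vale.Agent.P221.Loc.Cov

/-!
# P221 (N221): the glued object, with its localisation map

* `md'`, `md` : the middle data, remembering the class of height one and the summands;
* `OutL` : the output of the construction, with the finiteness of all homotopy groups and the map
  `X ⟶ N` which is bijective in high degrees after tensoring with an acyclic finite object.
-/

set_option linter.unusedSectionVars false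

noncomputable section

open CategoryTheory MonoidalCategory Limits Pretriangulated MulOpposite

namespace Vale.Agent.N221

open Vale.Agent.P251 Vale.Agent.P251.T Vale.Agent.P251.S Vale.Agent.P221X Vale.Agent.P221X.NM
  Vale.Agent.P221X.TB Vale.Agent.P221X.TA

universe u

variable {T : Type u} [Category.{0} T] [Preadditive T] [HasZeroObject T] [HasShift T ℤ]
  [∀ n : ℤ, (shiftFunctor T n).Additive] [Pretriangulated T] [IsTriangulated T]
  [MonoidalCategory T] [SymmetricCategory T] [TensorTriangulated T] [MonoidalClosed T]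
  [HasCoproducts.{0} T] [HasProducts.{0} T] [StableCat T]

variable {p : ℕ} {F : Type} [Field F] {D : GD p F} {R : Type} [Ring R] [Algebra F R]
  {S : RD D R} {Al : AlgA S} {b V : T}

theorem md' [Finite F] [CharP F p] (h1 : 1 < p) (hF : p < Nat.card F) {Q : ℕ} (hQ : 4 ≤ Q)
    (X : P221X.TA Al Q b V) :
    ∃ M : MD Al b V, M.Ke = X.Ke ∧ ∀ i, NM.Thick X.D.P (M.P i) := by
  have _ : NeZero Q := ⟨by omega⟩
  have _ : Fact (1 < Q) := ⟨by omega⟩
  have hq : (4 : ℤ) ≤ Q := by exact_mod_cast hQ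
  obtain ⟨A', a, r, har, hra⟩ := P251.X.exists_split X.e X.e_idem
  have har' : ∀ s : ℤ, a⟦s⟧' ≫ r⟦s⟧' = 𝟙 _ := fun s => map_ret _ har
  have hra' : ∀ s : ℤ, r⟦s⟧' ≫ a⟦s⟧' = X.e⟦s⟧' := fun s => by rw [← Functor.map_comp, hra]
  have har'' : ∀ s : ℤ, a⟦s⟧'⟦(1 : ℤ)⟧' ≫ r⟦s⟧'⟦(1 : ℤ)⟧' = 𝟙 _ := fun s => map_ret _ (har' s)
  have hra'' : ∀ s : ℤ, r⟦s⟧'⟦(1 : ℤ)⟧' ≫ a⟦s⟧'⟦(1 : ℤ)⟧' = X.e⟦s⟧'⟦(1 : ℤ)⟧' := fun s => by
    rw [← Functor.map_comp, hra']
  have hθ : ∀ s : ℤ, X.e⟦s⟧' ≫ (X.D.lam Al.θ)⟦s⟧' = (X.D.lam Al.θ)⟦s⟧' ≫ X.e⟦s⟧' := fun s => by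
    rw [← Functor.map_comp, X.e_θ, Functor.map_comp]
  have hθ' : ∀ s : ℤ, X.e⟦s⟧'⟦(1 : ℤ)⟧' ≫ (X.D.lam Al.θ)⟦s⟧'⟦(1 : ℤ)⟧' =
      (X.D.lam Al.θ)⟦s⟧'⟦(1 : ℤ)⟧' ≫ X.e⟦s⟧'⟦(1 : ℤ)⟧' := fun s => by
    rw [← Functor.map_comp, hθ, Functor.map_comp]
  choose Y inn out dist using fun s : ℤ =>
    distinguished_cocone_triangle (a⟦s⟧' ≫ (X.D.lam Al.θ)⟦s⟧' ≫ r⟦s⟧')
  choose δ hδ using exists_test X.distM
  let B := fun s : ℤ => X.blk.shift s (zero_add s)
  let B' := fun s : ℤ => (B s).shift 1 rfl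
  have hJ := fun s : ℤ => X.jl.shift s (zero_add s)
  have hP := fun s : ℤ => X.pair.shift s (zero_add s)
  have hP' := fun i : ZMod Q => X.pair' (dg_succ i)
  choose z hz using fun s : ℤ => (hJ s).gen s
  have hr : ∀ (i : ZMod Q) n, Res Q (dg (i + 1) + 1) n ↔ Res Q (dg i) n :=
    fun i n => Res.congr (dg_dvd i) n
  have r₀ : ∀ s : ℤ, Res Q s s := Res.self _
  have r₁ : ∀ s : ℤ, ¬ Res Q s (s - 1) := fun s => not_res hq (.inl rfl)
  have r₀' : ∀ i : ZMod Q, Res Q (dg (i + 1) + 1) (dg i) := fun i => (hr i _).2 (r₀ _)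
  have r₁' : ∀ i : ZMod Q, ¬ Res Q (dg (i + 1) + 1) (dg i - 1) := fun i => mt (hr i _).1 (r₁ _)
  have two : ∀ d (i : ZMod Q), ¬ Res Q (dg i) d ∨ ¬ Res Q (dg (i + 1 + 1)) d := fun d i => by
    rw [Res.congr (s := dg (i + 1 + 1)) (s' := dg i - 2) (by
      have := dvd_add (dg_dvd i) (dg_dvd (i + 1))
      rwa [show dg (i + 1) + 1 - dg i + (dg (i + 1 + 1) + 1 - dg (i + 1)) =
        dg (i + 1 + 1) - (dg i - 2) by ring] at this)]
    exact res_two hq
  have hL : ∀ {K : T}, Acyclic K (X.Le.L.obj X.D.P) → ∀ s : ℤ, Acyclic K (X.Le.L.obj (A'⟦s⟧)) :=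
    fun h s => ((h.shift s).of_iso ((X.Le.L.commShiftIso s).app _).symm).retract _ _
      (map_ret _ (har' s))
  have hth : ∀ s : ℤ, (a⟦s⟧' ≫ (X.D.lam Al.θ)⟦s⟧' ≫ r⟦s⟧') ≫ a⟦s⟧' =
      a⟦s⟧' ≫ (X.D.lam Al.θ)⟦s⟧' := fun s => by
    rw [Category.assoc, Category.assoc, hra', ← hθ, ← hra', Category.assoc, reassoc_of% har']
  have hae : ∀ (s : ℤ) (y : X.D.P'⟦s⟧ ⟶ A'⟦s⟧), (y ≫ a⟦s⟧') ≫ X.e⟦s⟧' = y ≫ a⟦s⟧' := fun s y => by
    rw [Category.assoc, ← hra', reassoc_of% har']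
  have hnz : ∀ s : ℤ, op ((X.D.shift s).eps ((X.y₀⟦s⟧' ≫ r⟦s⟧') ≫ a⟦s⟧')) • Al.O.inv Al.θ ≠ 0 :=
    fun s => by
      have h₁ : (X.y₀⟦s⟧' ≫ r⟦s⟧') ≫ a⟦s⟧' = (X.y₀ ≫ X.e)⟦s⟧' := by
        rw [Category.assoc, hra', ← Functor.map_comp]
      have h₂ : (X.D.shift s).eps ((X.y₀⟦s⟧' ≫ r⟦s⟧') ≫ a⟦s⟧') = 1 :=
        (congrArg (X.D.shift s).eps h₁).trans ((X.D.shift_eps s _).trans X.eps_e)
      rw [h₂, op_one, one_smul]
      exact Al.inv_ne
  have hMJ : ∀ (i : ZMod Q) (I : Type), HZ (X.M⟦dg (i + 1) - 1⟧) (∐ fun _ : I => X.J⟦dg i⟧) :=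
    fun i I => (hδ (dg (i + 1))).hz
      ((hJ (dg i)).van_sum I _ (mt (hr i _).2 (not_res hq (.inl (by ring)))))
      ((hJ (dg i)).van_sum I _ (mt (hr i _).2 (not_res hq (.inr (by ring)))))
  refine ⟨{
    Kh := X.Kh
    Ke := X.Ke
    Lh := X.Lh
    Le := X.Le
    bdd := X.bdd
    ι := ZMod Q
    succ := Equiv.addRight 1
    P := fun i => A'⟦dg i⟧
    th := fun i => a⟦dg i⟧' ≫ (X.D.lam Al.θ)⟦dg i⟧' ≫ r⟦dg i⟧'
    Y := fun i => Y (dg i)
    inn := fun i => inn (dg i)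
    out := fun i => out (dg i)
    dist := fun i => dist (dg i)
    J := fun i => X.J⟦dg i⟧
    g := fun i => (B (dg i)).g (hP _) (r₀ _) (hz _) (r⟦dg i⟧')
    g' := fun i => (B' (dg (i + 1))).g (hP' i) (r₀' i) (hz _) (r⟦dg (i + 1)⟧'⟦(1 : ℤ)⟧')
    g_th := fun i f => (B _).g_th _ _ _ (har' _) (hra' _) (hθ _) f
    g'_th := fun i f => by
      rw [(shiftFunctor T (1 : ℤ)).map_comp, (shiftFunctor T (1 : ℤ)).map_comp]
      exact (B' _).g_th _ _ _ (har'' _) (hra'' _) (hθ' _) f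
    Z := fun d i => ¬ Res Q (dg i) d
    Z_J := fun d i h I => (hJ _).van_sum I d h
    Z_P := fun d i h => ⟨hz_retract (har' _) ((B _).van d h),
      hz_retract (map_ret _ (har' _)) ((B _).vanL d h)⟩
    Z_P' := fun d i h => ⟨hz_retract (har'' _) ((B' _).van d (mt (hr i d).1 h)),
      hz_retract (map_ret _ (har'' _)) ((B' _).vanL d (mt (hr i d).1 h))⟩
    crd := fun d hd i h => by
      obtain ⟨w, hw⟩ := (hJ (dg i)).gen d
      have h₁ := dg_le i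
      have h₂ := dg_le (i + 1)
      exact ⟨w, hw.gen, (B _).crd _ _ _ (har' _) (hra' _) Al (not_not.1 h) (by omega) hw,
        (B' _).crd _ _ _ (har'' _) (hra'' _) Al ((hr i d).2 (not_not.1 h)) (by omega) hw⟩
    Z_up := fun d i => (two d i).imp_right .inr
    Z_down := fun d i => by
      have := two d (i + -1 + -1)
      rw [show i + -1 + -1 + 1 + 1 = i by ring] at this
      exact this.symm.imp_right .inr
    pP := fun i => by
      rw [← har', ← Category.id_comp (r⟦_⟧'), ← Preadditive.comp_zsmul, ← Preadditive.zsmul_comp,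
        ← (shiftFunctor T _).map_id, ← Functor.map_zsmul, X.pA, Functor.map_zero, zero_comp,
        comp_zero]
    pJ := fun i => (hJ _).pJ
    P_V := fun i => acy' (((acy X.A_V).shift _).retract _ _ (har' _))
    LeP_V := fun i => acy' (hL (acy X.LA_V) _)
    J_V := fun i => acy' (hJ _).zero
    P_loc := fun i => (X.A_loc.shift _).retract _ _ (har' _)
    LeP_acyc := fun i => hL X.LA_acyc _
    J_acyc := fun i => X.J_acyc.shift _
    J_loc := fun i => (hJ _).loc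
    TD := fun i => X.D.shift (dg i)
    M := fun i => X.M⟦dg i - 1⟧
    cell := fun i => X.cell _
    lat := fun i => X.lat _
    toP := fun i => a⟦dg i⟧'
    th_toP := fun i => hth _
    κ := fun i => (B (dg i)).kap (r₀ _) (r₁ _) (hδ _)
    κ_lam := fun i => (B _).kap_lam _ _ _
    κ_lat := fun i => (B _).kap_lat _ _ _ le_rfl
    M_van := fun i => ⟨(hδ _).hz ((B' _).van _ (not_res hq (by omega)))
        ((B' _).van _ (not_res hq (by omega))),
      (hδ _).hz ((B' _).vanL _ (not_res hq (by omega))) ((B' _).vanL _ (not_res hq (by omega)))⟩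
    κ' := fun i => (B' (dg (i + 1))).kap (r₀' i) (r₁' i) (hδ _)
    κ'_lam := fun i => (B' _).kap_lam _ _ _
    z := fun i => δ _ ≫ z (dg i)
    z_gen := fun i I x => by
      obtain ⟨x, rfl⟩ := (hδ _).surj ((hJ _).van_sum I _ (r₁ _)) x
      obtain ⟨n, rfl⟩ := (hz _).gen I x
      exact ⟨n, comp_cmb _ _ _⟩
    κ_g := fun i f hf => by
      rw [Category.assoc]
      exact ((B _).kap_δ _ _ _ _).trans ((B _).k_g _ _ _ (hra' _) hf)
    κ'_g := fun i f hf => by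
      rw [Category.assoc]
      exact ((B' _).kap_δ _ _ _ _).trans ((B' _).k_g _ _ _ (hra'' _) hf)
    M_J := hMJ
    P'_van := fun i => hz_retract (har'' (dg i)) (X.D.shift (dg i)).van
    rig := fun i y hy => X.rig' h1 hF (dg i) (r₁ _) (hδ _) _ (hae (dg i) y) hy
    nonzero := ⟨0, _, hnz _⟩ }, rfl, fun i => ?_⟩
  exact .retract _ _ (har' (dg i)) (.susp _ .base)


theorem md [Finite F] [CharP F p] (h5 : 5 ≤ p) (hF : p < Nat.card F)
    (X : P221X.TA Al (2 * p - 2) b V) :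
    ∃ M : MD Al b V, M.Ke = X.Ke ∧ ∀ i, NM.Thick X.D.P (M.P i) := by
  have e : (2 * p - 2 : ℤ) = ((2 * p - 2 : ℕ) : ℤ) := by omega
  revert X
  rw [e]
  exact fun X => md' (by omega) hF (by omega) X

/-- finite sums -/
theorem thick_biproduct {B : T} {I : Type} [Fintype I] {A : I → T} (h : ∀ i, NM.Thick B (A i)) :
    NM.Thick B (⨁ A) := by
  classical
  have key : ∀ s : Finset I, ∃ (Z : T) (i : ⨁ A ⟶ Z) (r : Z ⟶ ⨁ A), NM.Thick B Z ∧
      i ≫ r = ∑ j ∈ s, biproduct.π A j ≫ biproduct.ι A j := by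
    intro s
    induction s using Finset.induction_on with
    | empty => exact ⟨B, 0, 0, .base, by rw [zero_comp, Finset.sum_empty]⟩
    | insert j s hj ih =>
      obtain ⟨Z, i, r, hZ, e⟩ := ih
      exact ⟨A j ⊞ Z, biprod.lift (biproduct.π A j) i, biprod.desc (biproduct.ι A j) r,
        NM.Thick.obj₂ (binaryBiproductTriangle_distinguished _ _) (h j) hZ, by
          rw [biprod.lift_desc, e, Finset.sum_insert hj]⟩
  obtain ⟨Z, i, r, hZ, e⟩ := key Finset.univ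
  exact .retract i r (e.trans biproduct.total) hZ

/-- a map with a bounded above cofibre is bijective in high degrees -/
theorem bijGe_of_bd {Δ : Triangle T} (hΔ : Δ ∈ distTriang T) (h : Ou.Bd 1 Δ.obj₃) :
    ∃ k, P221.Loc.BijGe k Δ.mor₁ := by
  obtain ⟨N, hN⟩ := h
  obtain ⟨N', hN'⟩ := Ou.Bd.shift ⟨N, hN⟩ (-1)
  refine ⟨max N N' + 1, fun j hj => ⟨fun x y e => sub_eq_zero.1 ?_, fun y => ?_⟩⟩
  · obtain ⟨t, ht⟩ := Triangle.coyoneda_exact₂ _ (inv_rot_of_distTriang _ hΔ) (x - y)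
      ((Preadditive.sub_comp _ _ _).trans (sub_eq_zero.2 e))
    rw [ht, hN' j (by omega) t]
    exact zero_comp
  · obtain ⟨x, hx⟩ := Triangle.coyoneda_exact₂ _ hΔ y (hN j (by omega) _)
    exact ⟨x, hx.symm⟩

/-- The output of the construction. -/
structure OutL (p : ℕ) (b V E Ke X : T) : Prop where
  out : Out p b V X
  pow : ((p : ℤ) ^ 8) • 𝟙 X = 0
  fin : ∀ n : ℤ, Finite (Sph T n ⟶ X)
  loc : ∃ (N : T) (f : X ⟶ N), NM.Thick E N ∧
    ∀ W, IsFin W → Acyclic Ke W → ∃ k, P221.Loc.BijGe k (f ▷ W)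

theorem outL_of [Fact p.Prime] [CharP F p] [Finite F] (M : MD Al b V) (hc : HasCov T)
    (hV : IsFin V) {E : T} (hE : ∀ i, NM.Thick E (M.P i)) : ∃ X : T, OutL p b V E M.Ke X := by
  obtain ⟨I⟩ := TA.exists_idx Al
  obtain ⟨X, ⟨C⟩⟩ := TA.exists_cov hc (M.Yf I)
  refine ⟨X, M.out_of I C hV (M.finite_pi I) (M.not_thick I C), C.pow_of (M.kl_Yf I),
    C.fin_pi (M.finite_pi I), _, M.xT I C,
    thick_biproduct fun i => .cof (M.dist i) (hE i) (hE i), fun W hW hK => ?_⟩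
  have hz : ∀ {Z : T}, IsLocal M.Ke Z → Acyclic W Z := fun h =>
    acy ((TC.tensLoc_fin hW h).isZero (hK.tensor_left _))
  have h1 : KEq W (M.fι I ≫ biprod.fst) :=
    ((keq_iff_acyclic (M.fdist I)).2 (acyclic_biproduct fun i => hz (M.Le.isLocal _))).comp
      (keq_fst (acyclic_biproduct fun i => hz (M.J_loc i _)))
  have h2 : IsIso ((M.fι I ≫ biprod.fst) ▷ W) := by
    have h3 : IsIso (W ◁ (M.fι I ≫ biprod.fst)) := h1
    have h4 : (M.fι I ≫ biprod.fst) ▷ W =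
        (β_ _ _).hom ≫ W ◁ (M.fι I ≫ biprod.fst) ≫ (β_ _ _).inv := by
      rw [← BraidedCategory.braiding_naturality_left_assoc, Iso.hom_inv_id, Category.comp_id]
    rw [h4]
    infer_instance
  obtain ⟨k, hk⟩ := bijGe_of_bd (dist_whiskerRight W C.dist)
    (Ou.bd_thick (Ou.thick_tensor hW C.W) ⟨0, fun n l => C.cocon n (by omega)⟩)
  refine ⟨k, ?_⟩
  rw [MD.xT, comp_whiskerRight]
  exact P221.Loc.BijGe.comp hk (.of_isIso k _)

/-- the abstract theorem -/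
theorem outL_of_ed [Fact p.Prime] [CharP F p] [Finite F] {Rf AA : Type} [Ring Rf] [Ring AA]
    {A₀ : RA S Rf AA} (h5 : 5 ≤ p) (hF : p < Nat.card F) (hc : HasCov T) (hV : IsFin V)
    (Al : AlgA S) (X : ED A₀ (2 * p - 2) b V) : ∃ Z : T, OutL p b V X.E X.Ke Z := by
  obtain ⟨M, h1, h2⟩ := md h5 hF (X.toTA (by omega) Al)
  have h3 : NM.Thick X.E X.A := .cof X.distA .base .base
  obtain ⟨Z, hZ⟩ := outL_of M hc hV (E := X.E) fun i => (h2 i).trans h3
  rw [h1] at hZ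
  exact ⟨Z, hZ⟩

end Vale.Agent.N221
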