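import Vale.Agent.P221.E.H658.Ind
import Vale.Agent.P221.Loc.Good
import Vale.Agent.P221X.TA.Out
import Vale.Agent.P221X.TD.TwrSt

/-!
# P221 (N221): modules tensored with generalised Moore spectra of type at least two

If `N` is a homotopy `BP`-module and `W` is a generalised Moore spectrum of type at least two, then
`v₁` is nilpotent on the homotopy of `N ⊗ W ⊗ S / p`. So this homotopy is finite in each degree
(or zero) if the homotopy of `N ⊗ V(1)` is.
-/

set_option linter.unusedSectionVars false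

noncomputable section

open CategoryTheory MonoidalCategory Limits Pretriangulated MonObj DirectSum

namespace Vale.Agent.N221

open Vale.Agent.P251 Vale.Agent.P251.T Vale.Agent.P251.S Vale.Agent.P251.M
  Vale.Agent.P251.M.EvenSpheres Vale.Agent.P221.H395.Fp Vale.Agent.P221.E.H658 Vale.Agent.P221X
  Vale.Agent.P221X.TA Vale.Agent.P221.Loc

universe u

section lib

variable {T : Type u} [Category.{0} T] [Preadditive T] [HasZeroObject T] [HasShift T ℤ]
  [∀ n : ℤ, (shiftFunctor T n).Additive] [Pretriangulated T] [IsTriangulated T]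
  [MonoidalCategory T] [SymmetricCategory T] [TensorTriangulated T] [MonoidalClosed T]
  [HasCoproducts.{0} T] [HasProducts.{0} T] [StableCat T]

theorem zero_thick {B Z : T} (h : NM.Thick B Z) (hB : IsZero B) : IsZero Z := by
  induction h with
  | base => exact hB
  | zero h => exact (IsZero.iff_id_eq_zero _).2 h
  | susp k _ ih => exact (shiftFunctor T k).map_isZero ih
  | cof hT _ _ ih ih' => exact Triangle.isZero₃_of_isZero₁₂ _ hT ih ih'
  | retract i r e _ ih => rw [IsZero.iff_id_eq_zero, ← e, ih.eq_of_src r 0, comp_zero]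

theorem thick_ten {N N' W : T} (h : NM.Thick N N') (hW : IsFin W) (V : T) :
    NM.Thick (N ⊗ V) ((N' ⊗ W) ⊗ V) :=
  ((Ou.thick_tensor hW N').trans h).map (tensorRight V)

/-- homotopy groups from the even homotopy groups -/
theorem all_of_even {Q : Type → Prop} (hQ : ∀ {A B : Type}, A ≃ B → Q A → Q B) {Y : T}
    (h0 : ∀ k, Q ((stdEven T).S k ⟶ Y)) (h1 : ∀ k, Q ((stdEven T).S k ⟶ Y⟦(1 : ℤ)⟧)) (j : ℤ) :
    Q ((𝟙_ T)⟦j⟧ ⟶ Y) := by
  obtain ⟨k, rfl | rfl⟩ := Int.even_or_odd' j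
  · exact hQ ((stdSph k).homCongr (Iso.refl Y)) (h0 k)
  · obtain ⟨e⟩ := nonempty_homShift Y (2 * (k + 1)) 1
    rw [show 2 * (k + 1) - 1 = 2 * k + 1 by ring] at e
    exact hQ (((stdSph (k + 1)).homCongr (Iso.refl _)).trans e.toEquiv) (h1 (k + 1))

variable {R : T} [MonObj R] [IsCommMonObj R] {N : T} (M : ModStr R N) {V V' : T} {d : ℤ}
  {f : V ⊗ (stdEven T).S d ⟶ V} {g : V ⟶ V'} {h : V' ⟶ (V ⊗ (stdEven T).S d)⟦(1 : ℤ)⟧}
  (hT : Triangle.mk f g h ∈ distTriang T) {w : (stdEven T).S d ⟶ R}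
  (hf : (FM.free R).map f = wm V w)

include hT hf

theorem exists_div (k : ℤ) (y : (stdEven T).S k ⟶ N ⊗ V) (hy : y ≫ N ◁ g = 0) :
    ∃ y' : (stdEven T).S (k - d) ⟶ N ⊗ V, ofM (M.tensorRight V) k y =
      HRing.of (stdEven T) R d w • ofM (M.tensorRight V) (k - d) y' := by
  obtain ⟨z, hz⟩ := Triangle.coyoneda_exact₂ _ (dist_whiskerLeft N hT) y hy
  obtain ⟨y', rfl⟩ := sg_surj (sub_add_cancel k d) z
  refine ⟨y', ?_⟩
  rw [of_smul_ofM _ (add_sub_cancel d k), ← sg_wm M (sub_add_cancel k d), ← hf, tm_free]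
  exact congrArg _ hz

theorem fin_of_nil (hfin : ∀ k, Finite ((stdEven T).S k ⟶ N ⊗ V')) (m : ℕ) : ∀ n : ℕ,
    (∀ u : ⨁ k, GrM (M.tensorRight V) k, HRing.of (stdEven T) R d w ^ (n + m) • u = 0) →
    ∀ k, (Set.range fun y : (stdEven T).S k ⟶ N ⊗ V =>
      HRing.of (stdEven T) R d w ^ n • ofM (M.tensorRight V) k y).Finite := by
  induction m with
  | zero => exact fun n hn k => (Set.finite_singleton 0).subset (by rintro _ ⟨y, rfl⟩; exact hn _)
  | succ m ih =>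
    intro n hn k
    have h1 := ih (n + 1) (by rwa [add_assoc, add_comm 1 m]) (k - d)
    have := hfin k
    let G : ((stdEven T).S k ⟶ N ⊗ V) → ((stdEven T).S k ⟶ N ⊗ V') := fun y => y ≫ N ◁ g
    refine ((Set.finite_range fun t => HRing.of (stdEven T) R d w ^ n •
      ofM (M.tensorRight V) k (Function.invFun G t)).image2 (· + ·) h1).subset ?_
    rintro _ ⟨y, rfl⟩
    obtain ⟨y', hy'⟩ := exists_div M hT hf k (y - Function.invFun G (G y)) (by
      rw [Preadditive.sub_comp, sub_eq_zero]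
      exact (Function.invFun_eq (f := G) ⟨y, rfl⟩).symm)
    refine ⟨_, ⟨G y, rfl⟩, _, ⟨y', rfl⟩, ?_⟩
    change _ • _ + _ • _ = _ • _
    rw [pow_succ, mul_smul, ← hy', ← smul_add, ← map_add, add_sub_cancel]

theorem zero_of_nil (hz : IsZero (N ⊗ V')) (m : ℕ) : ∀ n : ℕ,
    (∀ u : ⨁ k, GrM (M.tensorRight V) k, HRing.of (stdEven T) R d w ^ (n + m) • u = 0) →
    ∀ (k) (y : (stdEven T).S k ⟶ N ⊗ V),
      HRing.of (stdEven T) R d w ^ n • ofM (M.tensorRight V) k y = 0 := by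
  induction m with
  | zero => exact fun n hn k y => hn _
  | succ m ih =>
    intro n hn k y
    obtain ⟨y', hy'⟩ := exists_div M hT hf k y (hz.eq_of_tgt _ _)
    rw [hy', ← mul_smul, ← pow_succ]
    exact ih (n + 1) (by rwa [add_assoc, add_comm 1 m]) _ _

variable {W : T} {a : ℕ} (hn : NilAt (HRing.of (stdEven T) R d w) a (W ⊗ V))

omit hT hf in
include hn in
theorem nil_assoc (u : ⨁ k, GrM ((M.tensorRight W).tensorRight V) k) :
    HRing.of (stdEven T) R d w ^ (0 + a) • u = 0 := by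
  apply hmap_inj (α_ N W V) (lin_assoc M W V)
  rw [map_smul, zero_add, hn]

include hn M

theorem fin_even (hfin : FinDeg ((N ⊗ W) ⊗ V')) (k : ℤ) :
    Finite ((stdEven T).S k ⟶ (N ⊗ W) ⊗ V) := by
  have h1 := fin_of_nil (M.tensorRight W) hT hf (fun k => (hfin (2 * k)).of_equiv _
    ((stdSph k).symm.homCongr (Iso.refl _))) a 0 (nil_assoc M hn) k
  refine Set.finite_univ_iff.1 (Set.Finite.of_finite_image (f := fun y =>
    HRing.of (stdEven T) R d w ^ 0 • ofM ((M.tensorRight W).tensorRight V) k y)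
    (by rwa [Set.image_univ]) fun y _ y' _ e => ?_)
  have h2 := congrArg (cM ((M.tensorRight W).tensorRight V) k) e
  simpa only [pow_zero, one_smul, cM_ofM] using h2

theorem zero_even (hz : IsZero ((N ⊗ W) ⊗ V')) (k : ℤ) :
    Subsingleton ((stdEven T).S k ⟶ (N ⊗ W) ⊗ V) := by
  refine subsingleton_of_forall_eq 0 fun y => ?_
  have h1 := zero_of_nil (M.tensorRight W) hT hf hz a 0 (nil_assoc M hn) k y
  have h2 := congrArg (cM ((M.tensorRight W).tensorRight V) k) h1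
  simpa only [pow_zero, one_smul, cM_ofM, map_zero] using h2

omit hT hf hn M in
/-- the suspension -/
def shI (N W V : T) : ((N ⊗ (𝟙_ T)⟦(1 : ℤ)⟧) ⊗ W) ⊗ V ≅ ((N ⊗ W) ⊗ V)⟦(1 : ℤ)⟧ :=
  (tensorRight W ⋙ tensorRight V).mapIso (tensorSph 1 N) ≪≫
    ((tensorRight W ⋙ tensorRight V).commShiftIso (1 : ℤ)).app N

omit hT hf hn M in
theorem thick_s1 (N : T) : NM.Thick N (N ⊗ (𝟙_ T)⟦(1 : ℤ)⟧) :=
  Ou.thick_tensor (.susp 1 .base) N

theorem finDeg_of_nil (hW : IsFin W) (hfin : FinDeg (N ⊗ V')) : FinDeg ((N ⊗ W) ⊗ V) :=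
  all_of_even (Q := Finite) (fun e h => h.of_equiv _ e)
    (fin_even M hT hf hn (Ou.fin_thick (thick_ten .base hW V') hfin)) fun k =>
      (fin_even (M.tensorRight _) hT hf hn (Ou.fin_thick (thick_ten (thick_s1 N) hW V') hfin)
        k).of_equiv _ ((Iso.refl _).homCongr (shI N W V))

theorem isZero_of_nil (hW : IsFin W) (hz : IsZero (N ⊗ V')) : IsZero ((N ⊗ W) ⊗ V) :=
  StableCat.generator _ fun j _ => (all_of_even (Q := Subsingleton) (fun e _ => e.symm.subsingleton)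
    (zero_even M hT hf hn (zero_thick (thick_ten .base hW V') hz)) (fun k =>
      haveI := zero_even (M.tensorRight _) hT hf hn
        (zero_thick (thick_ten (thick_s1 N) hW V') hz) k
      ((Iso.refl _).homCongr (shI N W V)).symm.subsingleton) j).elim _ _

end lib

section st

open Vale.Agent.P251.St Vale.Agent.P251.St.SHCat Vale.Agent.P257.St Vale.Agent.P257.H702
  Vale.Agent.P251.I Vale.Agent.P221

variable {T : SHCat} {S : Susp T} {R : RingSp T} {p : ℕ} {φ : GHom S p R}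

theorem free_selfMap {k : ℕ} {V : T.C} {f : S.obj (Cn k) ⊗ V ⟶ V} {w : S.obj (Cn k) ⟶ R.obj}
    (h : f ≫ (λ_ V).inv ≫ η[R.obj] ▷ V = w ▷ V) :
    (FM.free R.obj).map (selfMap f) = wm V ((isoE S k).inv ≫ w) := by
  apply FM.hom_ext
  change (V ◁ (isoE S k).inv ≫ (β_ V (S.obj (Cn k))).hom ≫ f) ≫ (λ_ V).inv ≫ η[R.obj] ▷ V =
    V ◁ ((isoE S k).inv ≫ w) ≫ (β_ V R.obj).hom
  rw [Category.assoc, Category.assoc, h, MonoidalCategory.whiskerLeft_comp, Category.assoc,
    BraidedCategory.braiding_naturality_right]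

/-- generalised Moore spectra are finite and torsion -/
theorem fin_genMoore {j : ℕ} {W : T.C} (hW : St.IsGenMoore φ j W) :
    IsFin W ∧ ∃ k : ℕ, Ou.Kl ((p : ℤ) ^ k) W := by
  induction hW with
  | @base i V g h hi hT =>
    refine ⟨.cof hT .base .base, i + i, ?_⟩
    have h1 : ((p : ℤ) ^ i • 𝟙 (𝟙_ T.C)) ≫ g = 0 := comp_distTriang_mor_zero₁₂ _ hT
    have h2 : h ≫ ((p : ℤ) ^ i • 𝟙 (𝟙_ T.C))⟦(1 : ℤ)⟧' = 0 := comp_distTriang_mor_zero₃₁ _ hT
    rw [Functor.map_zsmul, CategoryTheory.Functor.map_id, Preadditive.comp_zsmul,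
      Category.comp_id] at h2
    obtain ⟨t, ht⟩ : ∃ t : V ⟶ 𝟙_ T.C, (p : ℤ) ^ i • 𝟙 V = t ≫ g :=
      Triangle.coyoneda_exact₃ _ hT _ (show ((p : ℤ) ^ i • 𝟙 V) ≫ h = 0 by
        rw [Preadditive.zsmul_comp, Category.id_comp]
        exact h2)
    rw [Preadditive.zsmul_comp, Category.id_comp] at h1
    rw [Ou.Kl, pow_add, mul_smul, ht, ← Preadditive.comp_zsmul, h1, comp_zero]
  | @step j k i V W f g h w hV hi hw hf hT ih =>
    obtain ⟨h', hT'⟩ := selfMap_dist hT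
    obtain ⟨h1, l, h2⟩ := ih
    refine ⟨.cof hT' ((Ou.thick_tensor
      ((NM.Thick.susp _ .base).iso (stdSph k).symm) V).trans h1) h1, l + l, ?_⟩
    rw [pow_add]
    exact Ou.Kl.ext (rot_of_distTriang _ hT') h2 ((h2.map (tensorRight _)).map (shiftFunctor _ 1))

variable [hp : Fact p.Prime] {D : MUData T.C} (Tw : TD.Twr D p)
  (U : MUFam (M.lineIso S.toSpaceFunctor) D) {o : Oriented S R} (hφ : IsPTyp p o φ)
  {j : ℕ} {W : T.C} (hW : St.IsGenMoore φ j W) (hj : 2 ≤ j) {N : T.C} (M : ModStr R.obj N)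

include U hφ hW hj M

theorem mod_genMoore : (FinDeg (N ⊗ Tw.V1) → FinDeg ((N ⊗ W) ⊗ Tw.M)) ∧
    (IsZero (N ⊗ Tw.V1) → IsZero ((N ⊗ W) ⊗ Tw.M)) := by
  obtain ⟨-, a, -, h1⟩ := nil_genMoore hp.out hφ hW
  have h2 := (h1 1 le_rfl hj).ext₃ (redTri_distinguished Tw.distM W) (h1 1 le_rfl hj)
  obtain ⟨h', hT⟩ := selfMap_dist (S := S) (TD.stMap_dist Tw.dist1)
  have hf := free_selfMap (Tw.hur_st U hφ).1
  exact ⟨finDeg_of_nil M hT hf h2 (fin_genMoore hW).1, isZero_of_nil M hT hf h2 (fin_genMoore hW).1⟩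

end st

end Vale.Agent.N221
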