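import Vale.Agent.P251CY.Lay
import Mathlib.CategoryTheory.Monoidal.Mod
import Mathlib.CategoryTheory.Triangulated.Generators

/-!
# P221 (N221), statement layer: standard forms of `BP⟨n⟩` and fp-spectra

The definitions of `P221CY/St.lean` in a shorter form (`N221/Br.lean` compares the two), with
Mathlib's module objects and Mathlib's thick subcategories generated by a class.
-/

open CategoryTheory

namespace Vale.Agent.P251CY.N221

open P251.St P251.St.SHCat

variable {T : SHCat} {S : Susp T} {R : RingSp T} {p : ℕ}

/-- `R`, with the homomorphism `φ : ℤ[v_1, v_2, …] → π_* R`, is the Brown-Peterson spectrum at `p`: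
with some complex orientation `o` it is the initial `p`-local commutative ring spectrum with a
`p`-typical complex orientation (the maps are the homomorphisms of ring spectra which carry the Thom
classes to the Thom classes). The elements `φ v_i` of `π_{2(p^i-1)} R` are the Hazewinkel
generators. -/
inductive IsBP (φ : GHom S p R) : Prop
  | mk {o : Oriented S R} : IsPTyp p o φ →
    (∀ (E : RingSp T) (u : Oriented S E) (ψ : GHom S p E), IsPTyp p u ψ →
      ∃! f : Hom R.obj E.obj, IsMonHom f ∧
        ∀ (n : ℕ) (A : Type) [Fintype A], comp (o.θ n A) (tenR f _) = u.θ n A) → IsBP φ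

/-- `π_k X` -/
abbrev Pi (k : ℤ) (X : T.C) : Type := Hom (sphere T k) X

/-- `Thick Q` is the thick subcategory generated by the class `Q`: Mathlib's triangulated envelope,
the smallest triangulated class closed under retracts which contains `Q`. -/
abbrev Thick (Q : T.C → Prop) : T.C → Prop := ObjectProperty.triangEnvelope Q

/-- `X` is `p`-complete: there are no nonzero maps `W ⟶ X` if `p` is invertible on `W`. -/
def PComplete (p : ℕ) (X : T.C) : Prop :=
  ∀ W : T.C, IsIso (zmul p (ident W)) → Subsingleton (Hom W X)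

/-- `c : X ⟶ Y` is the `p`-completion of `X`. -/
def IsPCompletion (p : ℕ) {X Y : T.C} (c : Hom X Y) : Prop :=
  PComplete p Y ∧ ∀ Z, PComplete p Z → ∀ f : Hom X Z, ∃! g : Hom Y Z, comp c g = f

/-- the structures of a homotopy `R`-module on `X` -/
abbrev Md (R : RingSp T) (X : T.C) : Type := ModObj R.obj X

/-- `x ∈ π_{2k} R` is a polynomial generator: up to a factor prime to `p` it is the value of a
polynomial `w ∈ ℤ[v_1, v_2, …]` of degree `2k` in which the coefficient of `v_{j+1}` is prime
to `p`. (For `R = BP`, where `π_* R = ℤ_(p)[v_1, v_2, …]`, this means that `x` is the product of a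
unit with `v_{j+1}`, modulo decomposable elements.) -/
def IsPolyGen (φ : GHom S p R) (j : ℕ) {k : ℕ} (x : PiR S R k) : Prop :=
  ∃ (m : ℤ) (w : VPoly p k), ¬ (p : ℤ) ∣ m ∧
    ¬ (p : ℤ) ∣ MvPolynomial.coeff (Finsupp.single j 1) w.pol ∧ zmul m x = φ.val w

/-- the multiplication `R ⊗ S^{2k} ⟶ R` by `x ∈ π_{2k} R` -/
noncomputable def mulBy {k : ℕ} (x : PiR S R k) : Hom (ten R.obj (Sn S k)) R.obj :=
  comp (tenL _ x) R.mul

/-- `q : R ⟶ C` is the quotient of `R` by the elements `x_0, x_1, …` of its homotopy, as a
homotopy `R`-module: it is `R`-linear and onto on homotopy, and the kernel of `π_* q` consists of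
the finite sums of products `b_i x_i`. -/
structure IsQuotient {d : ℕ → ℕ} (x : ∀ i, PiR S R (d i)) {C : T.C} (a : Md R C)
    (q : Hom R.obj C) : Prop where
  lin : @IsModHom _ _ _ _ _ _ _ _ _ _ (.regular _) a q
  surj : ∀ k (y : Pi k C), ∃ u : Pi k _, y = comp u q
  ker : ∀ k (u : Pi k _), comp u q = nul _ C ↔
    ∃ (N : ℕ) (b : ∀ i, Pi k _), u = hsum N fun i => comp (b i) (mulBy (x i))

/-- `B` is a standard form of `BP⟨n⟩_p`: the `p`-completion of the quotient of the Brown-Peterson
spectrum by polynomial generators `x_i` of degree `2(p^(n+i+1)-1)`, `i ≥ 0`. -/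
inductive IsStandardForm (S : Susp T) (p n : ℕ) (B : T.C) : Prop
  | mk {P} {φ : GHom S p P} {x : ∀ i, PiR S P (p ^ (n + i + 1) - 1)} {C} {a : Md P C} {q}
    {c : Hom C B} :
    IsBP φ → (∀ i, IsPolyGen φ (n + i) (x i)) → IsQuotient x a q → IsPCompletion p c →
      IsStandardForm S p n B

/-- `V` is a generalised Moore spectrum of type `j ≥ 1`: there are `V_1, …, V_j = V`, where `V_1` is
the cofibre of `p ^ i_0` on the sphere spectrum, `i_0 > 0`, and `V_{l+1}` is the cofibre of a self
map `f : Σ^{2k} V_l ⟶ V_l` which induces the multiplication by `v_l ^ i_l` on `R_* V_l`, `i_l > 0`: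
the maps `R ⊗ S^{2k} ⊗ V_l ⟶ R ⊗ V_l` given by `f` and by `v_l ^ i_l` are equal on homotopy groups.
(Here `R = BP`, and `v_l = φ (v_l)` are the Hazewinkel generators.) -/
inductive IsGenMoore (φ : GHom S p R) : ℕ → T.C → Prop
  | base {i : ℕ} {V} {g : Hom T.one V} {h} :
      0 < i → Dist (zmul ((p : ℤ) ^ i) (ident _)) g h → IsGenMoore φ 1 V
  | step {j k i : ℕ} {V W} {f : Hom (ten (Sn S k) V) V} {g : Hom V W} {h} {w : VPoly p k} :
      IsGenMoore φ j V → 0 < i → w.pol = vEl p j ^ i →
      (∀ m (y : Pi m _), comp y (under _ f) = comp y (tenR (mulBy (φ.val w)) V)) → Dist f g h →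
        IsGenMoore φ (j + 1) W

/-- `X` is an fp-spectrum of fp-type at most `n`: it is `p`-complete and bounded below, and there is
a generalised Moore spectrum `V` of type `n + 1` such that `π_* (X ⊗ V)` is finite in total. (By the
thick subcategory theorem and the periodicity theorem this holds for some finite `p`-local spectrum
`V` of type `n + 1` if and only if it holds for all of them, and generalised Moore spectra exist.) -/
inductive IsFpType (S : Susp T) (p n : ℕ) (X : T.C) : Prop
  | mk {P} {φ : GHom S p P} {V} {M N : ℤ} : PComplete p X → (∀ k < M, Subsingleton (Pi k X)) →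
    IsBP φ → IsGenMoore φ (n + 1) V →
    (∀ k, Finite (Pi k (ten X V)) ∧ (N < |k| → Subsingleton (Pi k (ten X V)))) → IsFpType S p n X

/-- `Y` is a homotopy module over a complex oriented ring spectrum. -/
inductive IsOr (S : Susp T) (Y : T.C) : Prop
  | mk {P} : Oriented S P → Md P Y → IsOr S Y

end Vale.Agent.P251CY.N221
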