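import Vale.Agent.N221.Nil
import Vale.Agent.N221.Md
import Vale.Agent.P221X.TC.All
import Vale.Agent.P221.Loc.Int

/-!
# P221 (N221): the glued object tensored with a generalised Moore spectrum of type at least two
-/

set_option linter.unusedSectionVars false

noncomputable section

open CategoryTheory MonoidalCategory Limits Pretriangulated MonObj PowerSeries

namespace Vale.Agent.N221

open Vale.Agent.P251 Vale.Agent.P251.T Vale.Agent.P251.S Vale.Agent.P251.M Vale.Agent.P251.I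
  Vale.Agent.P251.M.EvenSpheres Vale.Agent.P221X Vale.Agent.P221X.TA Vale.Agent.P221X.TC
  Vale.Agent.P221.Loc ProG

universe u

section lib

variable {T : Type u} [Category.{0} T] [Preadditive T] [HasZeroObject T] [HasShift T ℤ]
  [∀ n : ℤ, (shiftFunctor T n).Additive] [Pretriangulated T] [IsTriangulated T]
  [MonoidalCategory T] [SymmetricCategory T] [TensorTriangulated T] [MonoidalClosed T]
  [HasCoproducts.{0} T] [HasProducts.{0} T] [StableCat T]

theorem ext_mulR {K N : T} [MonObj K] (a : ModStr K N) {d k l : ℤ} (h : k + d = l)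
    (h' : d + k = l) (w : Se T d ⟶ K) (y : Se T k ⟶ N) :
    (stdEven T).ext h y (𝟙 _) ≫ TD.mulR a w = gsmul a h' w y := by
  rw [TD.mulR, ← Category.assoc, ext_comm h h', ← Category.assoc, ← ext_comp_left,
    Category.id_comp, gsmul]

theorem ext_surj {N : T} {d k l : ℤ} (h : k + d = l) (z : Se T l ⟶ N ⊗ Se T d) :
    ∃ y : Se T k ⟶ N, (stdEven T).ext h y (𝟙 _) = z := by
  obtain ⟨y, hy⟩ := whiskerRight_surj (Se T d) (((stdEven T).mu k d l h).hom ≫ z)
  exact ⟨y, by rw [EvenSpheres.ext, tensorHom_id, hy, Iso.inv_hom_id_assoc]⟩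

variable {D : MUData T} {p : ℕ} [Fact p.Prime] {F : Type} [Field F]
  [CharP F p] {G G' : Type} [Group G] [ProG G] [MulSemiringAction G F⟦X⟧]
  [MulSemiringAction G (KK F)] [ActK G F] [Group G'] [ProG G'] [MulSemiringAction G' F⟦X⟧]
  [MulSemiringAction G' (KK F)] [ActK G' F] {S : TS D p F} {B : BG p F G G'}

/-- the homotopy groups of `E ⊗ V(1)` are finite -/
theorem finDeg_E2 [Finite F] (Y : E2 S B) : FinDeg (Y.E ⊗ S.W.V1) := by
  obtain ⟨Z, g, h, hT⟩ := distinguished_cocone_triangle (TD.mulR Y.mod (D.vel p 1))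
  have key : ∀ (j : ℤ) (y : Se T (j - ((p : ℤ) ^ 1 - 1)) ⟶ Y.E),
      Y.pe j ((stdEven T).ext (sub_add_cancel _ _) y (𝟙 _) ≫ TD.mulR Y.mod (D.vel p 1)) =
        X * Y.pe _ y := fun j y => by
    rw [ext_mulR _ _ (add_sub_cancel _ _), Y.pe_mod, S.chi_v1]
  have ho : OddZero Z := oddZero₃ hT Y.odd fun j x hx => by
    obtain ⟨y, rfl⟩ := ext_surj (sub_add_cancel j _) x
    have h1 := key j y
    rw [hx, map_zero] at h1
    rw [(map_eq_zero_iff _ (Y.pe _).injective).1 ((mul_eq_zero.1 h1.symm).resolve_left X_ne_zero),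
      ext_zero_left]
  have he : ∀ j, Finite (Se T j ⟶ Z) := fun j =>
    .of_surjective (fun c : F => (Y.pe j).symm (C c) ≫ g) fun z => by
      obtain ⟨y, rfl⟩ := surj_even hT (Y.odd.tensS _) j z
      obtain ⟨q, hq⟩ : X ∣ Y.pe j y - C (constantCoeff (Y.pe j y)) := X_dvd_iff.2 (by simp)
      obtain ⟨y', rfl⟩ := (Y.pe (j - ((p : ℤ) ^ 1 - 1))).surjective q
      rw [← key] at hq
      have h0 : TD.mulR Y.mod (D.vel p 1) ≫ g = 0 := comp_distTriang_mor_zero₁₂ _ hT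
      refine ⟨constantCoeff (Y.pe j y), ?_⟩
      change _ ≫ g = _
      rw [← sub_eq_iff_eq_add.2 (sub_eq_iff_eq_add'.1 hq), ← map_sub, AddEquiv.symm_apply_apply,
        Preadditive.sub_comp, Category.assoc, h0, comp_zero, sub_zero]
  have hZ : FinDeg Z := fun j => by
    obtain ⟨k, rfl | rfl⟩ := Int.even_or_odd' j
    · exact (he k).of_equiv _ ((stdSph k).homCongr (Iso.refl Z))
    · exact Ou.HZ.fin (ho _ ⟨k, rfl⟩)
  obtain ⟨e, -⟩ := exists_iso_of_arrow_iso _ _ (dist_whiskerLeft Y.E S.W.dist1)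
    (dist_whiskerRight S.W.M hT) (Arrow.isoMk (α_ _ _ _).symm (Iso.refl _)
      ((TD.whiskerLeft_eq Y.mod S.W.hur1').symm.trans (Category.comp_id _).symm))
  exact FinDeg.of_iso (Ou.fin_thick (Ou.thick_tensor S.W.finM Z) hZ) (Triangle.π₃.mapIso e).symm

end lib

open Vale.Agent.P251.St Vale.Agent.P251.St.SHCat Vale.Agent.P257.St Vale.Agent.P257.H702
  Vale.Agent.P257.H80 Vale.Agent.P257.H762 Vale.Agent.P221

variable {T : SHCat} {S : Susp T} {p : ℕ} [hp : Fact p.Prime] {D : MUData T.C}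
  {P : RingSp T} {o : Oriented S P} {φ : GHom S p P}

theorem tf_of {Y : T.C} (h : FinDeg Y) (h1 : Ou.Bd 1 Y) (h2 : Ou.Bd (-1) Y) :
    St.TotallyFinite Y := by
  obtain ⟨N, hN⟩ := h1
  obtain ⟨N', hN'⟩ := h2
  refine ⟨h, max N N', fun k hk => ?_⟩
  rcases lt_abs.1 hk with h3 | h3
  · exact hN k (by omega)
  · exact hN' k (by omega)

theorem bd_of_tf {Y : T.C} (h : St.TotallyFinite Y) : Ou.Bd 1 Y ∧ Ou.Bd (-1) Y := by
  obtain ⟨-, N, hN⟩ := h
  exact ⟨⟨N, fun n l => hN n (lt_abs.2 (.inl (by omega)))⟩,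
    ⟨N, fun n l => hN n (lt_abs.2 (.inr (by omega)))⟩⟩

theorem thickOf_of_nm {Q : T.C → Prop} {B X : T.C} (hB : Q B) (h : NM.Thick B X) :
    St.ThickOf Q X := by
  induction h with
  | base => exact .base hB
  | zero h => exact .zero h
  | susp k _ ih => exact .susp k ih
  | cof hd _ _ h1 h2 => exact .cof hd h1 h2
  | retract i r hir _ ih => exact .retract i r hir ih

variable (hD : MUUniv (M.lineIso S.toSpaceFunctor) D) (U : MUFam (M.lineIso S.toSpaceFunctor) D)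
  (hP : IsBrownPeterson p o φ)

include hD U hP

theorem bp_mod {N : T.C} (h : Ou.Kl p N) (a : ModStr D.R N) : Nonempty (ModStr P.obj N) := by
  obtain ⟨b, hb, ho⟩ := U.exists_mapS o
  exact H606.exists_modStr_of_mu' hD (isBPMon_of_isBrownPeterson ptypOut hD U ptypIn hP ho)
    (Fin.pComplete_of_pow (k := 1) (by rwa [pow_one])) a

variable {j : ℕ} {W : T.C} (hW : St.IsGenMoore φ j W) (hj : 2 ≤ j)

include hW hj

/-- generalised Moore spectra of type at least two are acyclic at height one -/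
theorem acyclic_genMoore {F : Type} [Field F] [CharP F p] (St : TS D p F) :
    P251.S.Acyclic St.Ke W := by
  obtain ⟨k, hk⟩ := (fin_genMoore hW).2
  obtain ⟨a⟩ := bp_mod hD U hP (Ou.Kl.map (Vn.p_M St.W) (tensorLeft St.Ke))
    ((ModStr.free D.R St.T1).tensorRight St.W.M)
  have h1 := (mod_genMoore St.W U hP.typ hW hj a).2
    (zero_thick (thick_ten .base St.W.finM _) St.acV1)
  have h2 := zero_thick (Fin.thick_mod St.W.distM (hk.map (tensorLeft _))) h1
  exact zero_thick (Fin.thick_mod St.W.distM (hk.map (tensorLeft St.Ke)))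
    (h2.of_iso (α_ _ _ _ ≪≫ whiskerLeftIso _ (β_ _ _) ≪≫ (α_ _ _ _).symm))

/-- **the objects `X ⊗ W`** -/
theorem thick_two (Tw : TD.Twr D p) {E : T.C} (a : ModStr D.R E) (pE : Ou.Kl p E)
    (h1 : FinDeg (E ⊗ Tw.V1)) (h2 : IsZero (E ⊗ Tw.V2)) {b X N B : T.C} (hX : Out p b Tw.V2 X)
    (hN : NM.Thick E N) {f : X ⟶ N} {k : ℤ} (hf : BijGe k (f ▷ W)) (hB : St.IsForm S p 2 B) :
    St.Thick B (X ⊗ W) := by
  have hfin := (fin_genMoore hW).1
  have hV := (Tw.genMoore U hP.typ).2.2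
  have h0 : Conn (0 : ℤ) (𝟙_ T.C) := D.conn_unit
  obtain ⟨a'⟩ := bp_mod hD U hP pE a
  have pW : ((p : ℤ) ^ 1) • 𝟙 (E ⊗ W) = 0 := by
    rw [pow_one]
    exact pE.map (tensorRight W)
  have h3 : FinDeg (E ⊗ W) :=
    Ou.fin_thick (Fin.thick_mod Tw.distM pW) ((mod_genMoore Tw U hP.typ hW hj a').1 h1)
  obtain ⟨Z, c, hc⟩ := exists_cov 0 (E ⊗ W)
  obtain ⟨Q, g, h, hT⟩ := distinguished_cocone_triangle c
  have hZ := BigCell.conn' h0 hc.cell
  have h4 : FinDeg Z := fun n => by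
    rcases lt_or_ge n 0 with l | l
    · exact Ou.HZ.fin (hZ n l)
    · exact @Finite.of_injective _ _ (h3 n) _ (hc.bij n l).1
  have h5 : Ou.Bd 1 (Z ⊗ Tw.V2) :=
    Ou.Bd.ext (inv_rot_of_distTriang _ (dist_whiskerRight Tw.V2 hT))
      ((Ou.bd_thick (Ou.thick_tensor Tw.fin2 Q)
        ⟨0, fun n l => hc.cof_zero h0 hT n (by omega)⟩).shift _)
      (Ou.bd_zero (zero_thick (thick_ten .base hfin _) h2))
  obtain ⟨l, hl⟩ := hX.pow
  obtain ⟨h6, h7⟩ := bd_of_tf (Y := X ⊗ Tw.V2) ⟨hX.fin, hX.bdd⟩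
  have h8 := thick_ten (N := X) .base hfin Tw.V2
  obtain ⟨m, hm⟩ := Ou.bd_thick (Ou.thick_tensor hfin X) ⟨0, fun n l => hX.conn n (by omega)⟩
    (ε := -1)
  refine thick_of_ev_form (f := f ▷ W) hp.out hB ⟨Fin.pComplete_of_pow
    (Ou.Kl.map hl (tensorRight W)), ⟨-m, fun n l => hm n (by omega)⟩, P, o, φ, _, hP, hV,
    tf_of (Ou.fin_thick h8 hX.fin) (Ou.bd_thick h8 h6) (Ou.bd_thick h8 h7)⟩ ⟨k, hf⟩
    (thickOf_of_nm (B := E ⊗ W) ⟨⟨P, o, _, H924.isAct_of_modStr (a'.tensorRight W)⟩, Z, c,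
      ⟨hc.pComplete Tw.distM h0 (Fin.pComplete_of_pow pW), ⟨0, hZ⟩, P, o, φ, _, hP, hV,
        tf_of (Ou.fin_thick (Ou.thick_tensor Tw.fin2 Z) h4) h5
          (Ou.bd_thick (Ou.thick_tensor Tw.fin2 Z) ⟨0, fun n l => hZ n (by omega)⟩)⟩, 0, hc.bij⟩
      (hN.map (tensorRight W)))

end Vale.Agent.N221
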